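import Vale.Agent.P155.CI.Defs

/-!
# P155: conformal invariance, test functions and the Green energy
-/

open Set Topology Metric Filter MeasureTheory TopologicalSpace

namespace Vale.Agent.P155.CI

open Vale.Agent.P155 Vale.Agent.P155.Q1

variable {Ω Ω' : Set ℂ} {f g : ℂ → ℂ}

theorem Conf.hasDerivAt (h : Conf Ω Ω' f g) {z : ℂ} (hz : z ∈ Ω) : HasDerivAt f (deriv f z) z :=
  (h.df.differentiableAt (h.ho.mem_nhds hz)).hasDerivAt

theorem Conf.deriv_mul (h : Conf Ω Ω' f g) {z : ℂ} (hz : z ∈ Ω) :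
    deriv g (f z) * deriv f z = 1 := by
  have h1 := (h.symm.hasDerivAt (h.mf hz)).comp z (h.hasDerivAt hz)
  have h2 : HasDerivAt (g ∘ f) 1 z := by
    refine (hasDerivAt_id z).congr_of_eventuallyEq ?_
    filter_upwards [h.ho.mem_nhds hz] with w hw
    exact h.gf w hw
  exact h1.unique h2

theorem Conf.deriv_ne (h : Conf Ω Ω' f g) {z : ℂ} (hz : z ∈ Ω) : deriv f z ≠ 0 := by
  intro h0
  have := h.deriv_mul hz
  rw [h0, mul_zero] at this
  exact zero_ne_one this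

theorem Conf.injOn (h : Conf Ω Ω' f g) : InjOn f Ω := fun z hz w hw e => by
  rw [← h.gf z hz, ← h.gf w hw, e]

theorem Conf.image (h : Conf Ω Ω' f g) : f '' Ω = Ω' := by
  ext w
  constructor
  · rintro ⟨z, hz, rfl⟩
    exact h.mf hz
  · intro hw
    exact ⟨g w, h.mg hw, h.fg w hw⟩

/-! ### smoothness -/

theorem Conf.contDiffAt (h : Conf Ω Ω' f g) {z : ℂ} (hz : z ∈ Ω) {n : WithTop ℕ∞} :
    ContDiffAt ℝ n f z :=
  ((h.df.analyticAt (h.ho.mem_nhds hz)).contDiffAt (n := n)).restrict_scalars ℝ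

theorem Conf.contDiffAt_deriv (h : Conf Ω Ω' f g) {z : ℂ} (hz : z ∈ Ω) {n : WithTop ℕ∞} :
    ContDiffAt ℝ n (deriv f) z :=
  ((h.df.analyticAt (h.ho.mem_nhds hz)).deriv.contDiffAt (n := n)).restrict_scalars ℝ

/-- the compact set carrying the pulled back functions -/
theorem Conf.isCompact_image (h : Conf Ω Ω' f g) {v : ℂ → ℝ} (hv : IsTest Ω' v) :
    IsCompact (g '' tsupport v) :=
  hv.2.1.image_of_continuousOn (h.dg.continuousOn.mono hv.2.2)

/-- a function which is smooth on `Ω` and zero off a compact subset of `Ω` -/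
theorem isTest_of {U K : Set ℂ} (hK : IsCompact K) (hKU : K ⊆ U) (hU : U ⊆ Ω)
    {u : ℂ → ℝ} (h1 : ∀ z ∈ Ω, ContDiffAt ℝ ((⊤ : ℕ∞) : WithTop ℕ∞) u z) (h0 : ∀ z, z ∉ K → u z = 0) :
    IsTest U u := by
  have hs : tsupport u ⊆ K := by
    refine closure_minimal (fun z hz => ?_) hK.isClosed
    by_contra hzK
    exact hz (h0 z hzK)
  refine ⟨?_, hK.of_isClosed_subset (isClosed_tsupport u) hs, hs.trans hKU⟩
  rw [contDiff_iff_contDiffAt]
  intro z
  by_cases hz : z ∈ Ω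
  · exact h1 z hz
  · have hzK : z ∉ K := fun h => hz (hU (hKU h))
    refine (contDiffAt_const (c := (0 : ℝ))).congr_of_eventuallyEq ?_
    filter_upwards [hK.isClosed.isOpen_compl.mem_nhds hzK] with w hw
    exact h0 w hw

theorem isTest_pull (h : Conf Ω Ω' f g) {U' : Set ℂ} {v : ℂ → ℝ} (hv : IsTest U' v)
    (hU' : U' ⊆ Ω') : IsTest {z | z ∈ Ω ∧ f z ∈ U'} (pull Ω f v) := by
  have hv' : IsTest Ω' v := ⟨hv.1, hv.2.1, hv.2.2.trans hU'⟩
  refine isTest_of (h.isCompact_image hv') ?_ (fun z hz => hz.1) (fun z hz => ?_) fun z hz => ?_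
  · rintro _ ⟨w, hw, rfl⟩
    have hwΩ : w ∈ Ω' := hv'.2.2 hw
    refine ⟨h.mg hwΩ, ?_⟩
    rw [h.fg w hwΩ]
    exact hv.2.2 hw
  · refine (hv.1.contDiffAt.comp z (h.contDiffAt hz)).congr_of_eventuallyEq ?_
    filter_upwards [h.ho.mem_nhds hz] with w hw
    rw [pull, if_pos hw]
    rfl
  · unfold pull
    split_ifs with hzΩ
    · by_contra hne
      exact hz ⟨f z, subset_tsupport v hne, h.gf z hzΩ⟩
    · rfl

theorem isTest_pullD (h : Conf Ω Ω' f g) {U' : Set ℂ} {v : ℂ → ℝ} (hv : IsTest U' v)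
    (hU' : U' ⊆ Ω') : IsTest {z | z ∈ Ω ∧ f z ∈ U'} (pullD Ω f v) := by
  have hv' : IsTest Ω' v := ⟨hv.1, hv.2.1, hv.2.2.trans hU'⟩
  refine isTest_of (h.isCompact_image hv') ?_ (fun z hz => hz.1) (fun z hz => ?_) fun z hz => ?_
  · rintro _ ⟨w, hw, rfl⟩
    have hwΩ : w ∈ Ω' := hv'.2.2 hw
    refine ⟨h.mg hwΩ, ?_⟩
    rw [h.fg w hwΩ]
    exact hv.2.2 hw
  · refine ((hv.1.contDiffAt.comp z (h.contDiffAt hz)).mul
      ((h.contDiffAt_deriv hz).norm_sq ℝ)).congr_of_eventuallyEq ?_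
    filter_upwards [h.ho.mem_nhds hz] with w hw
    rw [pullD, if_pos hw]
    rfl
  · unfold pullD
    split_ifs with hzΩ
    · by_contra hne
      refine hz ⟨f z, subset_tsupport v ?_, h.gf z hzΩ⟩
      exact left_ne_zero_of_mul hne
    · rfl

/-- test functions on the image -/
theorem isTest_pullD' (h : Conf Ω Ω' f g) {v : ℂ → ℝ} (hv : IsTest Ω' v) :
    IsTest Ω (pullD Ω f v) := by
  have h1 := isTest_pullD h hv (subset_refl _)
  exact ⟨h1.1, h1.2.1, h1.2.2.trans fun z hz => hz.1⟩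

theorem isTest_pull' (h : Conf Ω Ω' f g) {v : ℂ → ℝ} (hv : IsTest Ω' v) :
    IsTest Ω (pull Ω f v) := by
  have h1 := isTest_pull h hv (subset_refl _)
  exact ⟨h1.1, h1.2.1, h1.2.2.trans fun z hz => hz.1⟩

/-! ### change of variables -/

/-- the real derivative of `f` -/
theorem Conf.hasFDerivAt (h : Conf Ω Ω' f g) {z : ℂ} (hz : z ∈ Ω) :
    HasFDerivAt f ((ContinuousLinearMap.toSpanSingleton ℂ (deriv f z)).restrictScalars ℝ) z :=
  (h.hasDerivAt hz).hasFDerivAt.restrictScalars ℝ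

theorem det_mul (a : ℂ) :
    ((ContinuousLinearMap.toSpanSingleton ℂ a).restrictScalars ℝ : ℂ →L[ℝ] ℂ).det = ‖a‖ ^ 2 := by
  have h1 : ((ContinuousLinearMap.toSpanSingleton ℂ a).restrictScalars ℝ : ℂ →L[ℝ] ℂ).det =
      LinearMap.det ((LinearMap.toSpanSingleton ℂ ℂ a).restrictScalars ℝ) := rfl
  rw [h1, LinearMap.det_restrictScalars, Algebra.norm_complex_eq]
  have h2 : LinearMap.det (LinearMap.toSpanSingleton ℂ ℂ a) = a := by
    simp
  rw [h2]
  exact Complex.normSq_eq_norm_sq a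

theorem integral_conf (h : Conf Ω Ω' f g) (F : ℂ → ℝ) :
    ∫ w in Ω', F w = ∫ z in Ω, F (f z) * ‖deriv f z‖ ^ 2 := by
  have h1 := integral_image_eq_integral_abs_det_fderiv_smul (μ := (volume : Measure ℂ))
    h.ho.measurableSet (fun z hz => (h.hasFDerivAt hz).hasFDerivWithinAt) h.injOn F
  rw [h.image] at h1
  rw [h1]
  refine setIntegral_congr_fun h.ho.measurableSet fun z _ => ?_
  simp only [det_mul, smul_eq_mul, abs_of_nonneg (sq_nonneg ‖deriv f z‖)]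
  exact mul_comm _ _

/-- images of null sets are null -/
theorem null_image (h : Conf Ω Ω' f g) {N : Set ℂ} (hN : N ⊆ Ω) (h0 : volume N = 0) :
    volume (f '' N) = 0 :=
  addHaar_image_eq_zero_of_differentiableOn_of_addHaar_eq_zero volume
    ((h.df.restrictScalars ℝ).mono hN) h0

/-! ### the Dirichlet energy -/

/-- multiplication by a complex number, as a real-linear map -/
noncomputable def mulc (a : ℂ) : ℂ →L[ℝ] ℂ :=
  (ContinuousLinearMap.toSpanSingleton ℂ a).restrictScalars ℝ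

theorem mulc_apply (a z : ℂ) : mulc a z = z * a := rfl

theorem norm_mulc_le (a : ℂ) : ‖mulc a‖ ≤ ‖a‖ := by
  refine ContinuousLinearMap.opNorm_le_bound _ (norm_nonneg a) fun z => ?_
  rw [mulc_apply, norm_mul, mul_comm]

theorem norm_comp_mulc (L : ℂ →L[ℝ] ℝ) {a : ℂ} (ha : a ≠ 0) : ‖L.comp (mulc a)‖ = ‖L‖ * ‖a‖ := by
  apply le_antisymm
  · exact (ContinuousLinearMap.opNorm_comp_le _ _).trans
      (mul_le_mul_of_nonneg_left (norm_mulc_le a) (norm_nonneg _))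
  · have e : L = (L.comp (mulc a)).comp (mulc a⁻¹) := by
      ext <;> simp [mulc_apply, ha]
    have h1 : ‖L‖ ≤ ‖L.comp (mulc a)‖ * ‖a⁻¹‖ := by
      conv_lhs => rw [e]
      exact (ContinuousLinearMap.opNorm_comp_le _ _).trans
        (mul_le_mul_of_nonneg_left (norm_mulc_le _) (norm_nonneg _))
    have h2 : 0 < ‖a‖ := norm_pos_iff.2 ha
    rw [norm_inv, ← div_eq_mul_inv, le_div_iff₀ h2] at h1
    exact h1

/-- the energy density of the pulled back function -/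
theorem fderiv_pull (h : Conf Ω Ω' f g) {v : ℂ → ℝ} (hv : IsTest Ω' v) {z : ℂ} (hz : z ∈ Ω) :
    ‖fderiv ℝ (pull Ω f v) z‖ ^ 2 = ‖fderiv ℝ v (f z)‖ ^ 2 * ‖deriv f z‖ ^ 2 := by
  have h1 : HasFDerivAt (v ∘ f) ((fderiv ℝ v (f z)).comp (mulc (deriv f z))) z :=
    ((hv.1.differentiable (by simp)) (f z)).hasFDerivAt.comp z (h.hasFDerivAt hz)
  have h2 : HasFDerivAt (pull Ω f v) ((fderiv ℝ v (f z)).comp (mulc (deriv f z))) z := by
    refine h1.congr_of_eventuallyEq ?_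
    filter_upwards [h.ho.mem_nhds hz] with w hw
    rw [pull, if_pos hw]
    rfl
  rw [h2.fderiv, norm_comp_mulc _ (h.deriv_ne hz), mul_pow]

theorem fderiv_off {U : Set ℂ} {v : ℂ → ℝ} (hv : IsTest U v) {z : ℂ} (hz : z ∉ U) :
    fderiv ℝ v z = 0 := by
  by_contra hne
  exact hz (hv.2.2 (support_fderiv_subset ℝ hne))

theorem energy_conf (h : Conf Ω Ω' f g) {v : ℂ → ℝ} (hv : IsTest Ω' v) :
    ∫ z, ‖fderiv ℝ (pull Ω f v) z‖ ^ 2 = ∫ z, ‖fderiv ℝ v z‖ ^ 2 := by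
  have hu := isTest_pull' h hv
  have e1 : ∫ z in Ω, ‖fderiv ℝ (pull Ω f v) z‖ ^ 2 = ∫ z, ‖fderiv ℝ (pull Ω f v) z‖ ^ 2 := by
    refine setIntegral_eq_integral_of_forall_compl_eq_zero fun z hz => ?_
    rw [fderiv_off hu hz]
    simp
  have e2 : ∫ z in Ω', ‖fderiv ℝ v z‖ ^ 2 = ∫ z, ‖fderiv ℝ v z‖ ^ 2 := by
    refine setIntegral_eq_integral_of_forall_compl_eq_zero fun z hz => ?_
    rw [fderiv_off hv hz]
    simp
  rw [← e1, ← e2, integral_conf h]
  exact setIntegral_congr_fun h.ho.measurableSet fun z hz => fderiv_pull h hv hz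

theorem pair_conf (h : Conf Ω Ω' f g) (φ : ℂ → ℝ) {v : ℂ → ℝ} (hv : ∀ w, w ∉ Ω' → v w = 0) :
    ∫ z, pullD Ω f φ z * pull Ω f v z = ∫ w, φ w * v w := by
  have e1 : ∫ z in Ω, pullD Ω f φ z * pull Ω f v z = ∫ z, pullD Ω f φ z * pull Ω f v z := by
    refine setIntegral_eq_integral_of_forall_compl_eq_zero fun z hz => ?_
    rw [pull, if_neg hz, mul_zero]
  have e2 : ∫ w in Ω', φ w * v w = ∫ w, φ w * v w := by
    refine setIntegral_eq_integral_of_forall_compl_eq_zero fun z hz => ?_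
    rw [hv z hz, mul_zero]
  rw [← e1, ← e2, integral_conf h]
  refine setIntegral_congr_fun h.ho.measurableSet fun z hz => ?_
  simp only [pull, pullD, if_pos hz]
  ring

theorem test_off {U : Set ℂ} {v : ℂ → ℝ} (hv : IsTest U v) {z : ℂ} (hz : z ∉ U) : v z = 0 := by
  by_contra hne
  exact hz (hv.2.2 (subset_tsupport v hne))

/-- every test function of the domain is pulled back from the image -/
theorem pull_pull (h : Conf Ω Ω' f g) {u : ℂ → ℝ} (hu : ∀ z, z ∉ Ω → u z = 0) :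
    pull Ω f (pull Ω' g u) = u := by
  funext z
  by_cases hz : z ∈ Ω
  · rw [pull, if_pos hz, pull, if_pos (h.mf hz), h.gf z hz]
  · rw [pull, if_neg hz, hu z hz]

theorem preimage_preimage (h : Conf Ω Ω' f g) {U' : Set ℂ} (hU' : U' ⊆ Ω') :
    {w | w ∈ Ω' ∧ g w ∈ {z | z ∈ Ω ∧ f z ∈ U'}} = U' := by
  ext w
  constructor
  · rintro ⟨hw, -, h2⟩
    rwa [h.fg w hw] at h2
  · intro hw
    refine ⟨hU' hw, h.mg (hU' hw), ?_⟩
    rw [h.fg w (hU' hw)]
    exact hw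

/-- **conformal invariance of the Green energy** -/
theorem green_conf (h : Conf Ω Ω' f g) {U' : Set ℂ} (hU' : U' ⊆ Ω') (φ : ℂ → ℝ) :
    greenEnergy U' φ = greenEnergy {z | z ∈ Ω ∧ f z ∈ U'} (pullD Ω f φ) := by
  unfold greenEnergy
  congr 1
  ext x
  constructor
  · rintro ⟨v, hv, rfl⟩
    have hv' : IsTest Ω' v := ⟨hv.1, hv.2.1, hv.2.2.trans hU'⟩
    refine ⟨pull Ω f v, isTest_pull h hv hU', ?_⟩
    rw [pair_conf h φ fun w hw => test_off hv' hw, energy_conf h hv']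
  · rintro ⟨u, hu, rfl⟩
    have hu' : IsTest Ω u := ⟨hu.1, hu.2.1, hu.2.2.trans fun z hz => hz.1⟩
    have hv := isTest_pull h.symm hu fun z hz => hz.1
    rw [preimage_preimage h hU'] at hv
    have hv' : IsTest Ω' (pull Ω' g u) := ⟨hv.1, hv.2.1, hv.2.2.trans hU'⟩
    refine ⟨pull Ω' g u, hv, ?_⟩
    have e1 := pair_conf h φ (v := pull Ω' g u) fun w hw => test_off hv' hw
    have e2 := energy_conf h hv'
    rw [pull_pull h fun z hz => test_off hu' hz] at e1 e2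
    rw [e1, e2]

end Vale.Agent.P155.CI
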