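import Vale.Agent.P155.CI.Asm
import Vale.Agent.P155.CI.Green

/-!
# P155, conformal invariance: the analytic input
-/

open Set Topology Metric Filter MeasureTheory TopologicalSpace

namespace Vale.Agent.P155.CI

open Vale.Agent.P155 Vale.Agent.P155.Q1 Vale.Agent.P155.EX

theorem ana : ANA := fun _ _ _ _ h =>
  ⟨fun _ hφ => isTest_pullD' h hφ, fun F => integral_conf h F, fun _ hN h0 => null_image h hN h0,
    fun _ hU' _ φ _ => green_conf h hU' φ⟩

end Vale.Agent.P155.CI
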