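import Vale.Agent.P155.CI.Carp
import Vale.Agent.P155.EX.Main3

/-!
# P155, conformal invariance of the nested CLE₄ law: assembly
-/

open Set Topology Metric Filter MeasureTheory TopologicalSpace

namespace Vale.Agent.P155.CI

open Vale.Agent.P155 Vale.Agent.P155.Q1 Vale.Agent.P155.EX

/-- (CI-C) the holes of the image carpets -/
def HOLES : Prop := ∀ (Ω Ω' : Set ℂ) (f g : ℂ → ℂ), Conf Ω Ω' f g → Bornology.IsBounded Ω →
  Bornology.IsBounded Ω' → ∀ G G' : ℕ → NonemptyCompacts ℂ,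
  (∀ k, (G' k : Set ℂ) = img Ω' g (G k)) → (∀ k, frontier Ω ⊆ (G k : Set ℂ)) →
  ∀ Γ Γ' : LoopColl, HoleLoops Ω G Γ → HoleLoops Ω' G' Γ' → MapsColl Ω Ω' f Γ Γ'

/-- (CI-A) -/
def ANA : Prop := ∀ (Ω Ω' : Set ℂ) (f g : ℂ → ℂ), Conf Ω Ω' f g → Ana Ω Ω' f

/-- **Conformal invariance of the nested CLE₄ law** (modulo the inputs) -/
theorem conf_inv_of (hPIN : PIN) (hBDT : BDT) (hA : ANA) (hH : HOLES) {Ω Ω' : Set ℂ}
    (hb : Bornology.IsBounded Ω) (hne : Ω.Nonempty)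
    (hb' : Bornology.IsBounded Ω') (hne' : Ω'.Nonempty) (hsc' : SimplyConnectedSpace Ω')
    {f g : ℂ → ℂ} (h : Conf Ω Ω' f g) {μ μ' : Measure LoopColl} (hμ : IsNestedCLE4 Ω μ)
    (hμ' : IsNestedCLE4 Ω' μ') :
    ∃ (Θ : Type) (_ : MeasurableSpace Θ) (P : Measure Θ) (Γ Γ' : Θ → LoopColl),
      IsProbabilityMeasure P ∧ AEMeasurable Γ P ∧ AEMeasurable Γ' P ∧ P.map Γ = μ ∧
      P.map Γ' = μ' ∧ ∀ᵐ x ∂P, MapsColl Ω Ω' f (Γ x) (Γ' x) := by
  -- the frontier of `Ω'` is connected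
  have hfc : IsConnected (frontier Ω') := by
    obtain ⟨Θ, mΘ, P, G, ξ, Γ, hP, -, -, -, -, -, -, -, -, -, sc⟩ := hμ'
    obtain ⟨x, h1, h2⟩ := (sc.zero.and sc.conn).exists
    rw [← h1.1]
    exact h2 0
  have hfr : (frontier Ω').Nonempty := hfc.nonempty
  obtain ⟨Θ, mΘ, P, G, ξ, Γ, hP, hΓ, rfl, hHL, mξ, pm, half, iind, mG, ind, sc⟩ := hμ
  have hfair : T211Q.FairCarpets P Ω G ξ := ⟨hP, mξ, pm, half, iind, mG, ind, sc⟩
  have sc' := carp h (hA Ω Ω' f g h) hb hne hb' hfr hfc hfair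
  obtain ⟨S'⟩ := EXA.exists_approx Ω' h.ho' hb' hne' hsc'
  have hconv := (QQ.full Ω' h.ho' hb' hne' hsc' S').2 Θ mΘ P _ _ hP sc'
  have hS := samep_of hPIN hBDT h.ho' hb' hne' hsc' S'
  have fair' := Ex795.fair_of_sc h.ho' hb' sc'
    (fun k x => by rw [coe_imgN]; exact frontier_sub_img g _) hconv hS
  obtain ⟨hm', hn'⟩ := nested_of_fair QQ.full QQ.tight.1 QQ.tight.2.1 QQ.tight.2.2 hPIN hBDT jord
    EX211.meas h.ho' hb' hne' hsc' S' fair'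
  have hpass := (pass_of_fair QQ.full QQ.tight.1 QQ.tight.2.1 QQ.tight.2.2 hPIN hBDT jord
    h.ho' hb' hne' hsc' S' fair').2
  have hq := Measure.quasiMeasurePreserving_fst (μ := P) (ν := Ex795.coins (ℕ × ℕ))
  have hmapfst : (P.prod (Ex795.coins (ℕ × ℕ))).map Prod.fst = P := by
    rw [Measure.map_fst_prod, measure_univ, one_smul]
  refine ⟨Θ × (ℕ × ℕ → Bool), inferInstance, P.prod (Ex795.coins (ℕ × ℕ)), fun y => Γ y.1,
    fun y => Gam Ω' fun k => imgN h hb' hfr (G k y.1), inferInstance,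
    hΓ.comp_quasiMeasurePreserving hq, hm', ?_, uniq Ω' h.ho' hb' hne' hsc' S' _ _ hn' hμ', ?_⟩
  · have h1 : AEMeasurable Γ ((P.prod (Ex795.coins (ℕ × ℕ))).map Prod.fst) := by
      rw [hmapfst]
      exact hΓ
    have h2 := AEMeasurable.map_map_of_aemeasurable h1 measurable_fst.aemeasurable
    rw [hmapfst] at h2
    exact h2.symm
  · filter_upwards [hpass, hq.ae hHL, hq.ae hfair.frontier_sub] with y h1 h2 h3
    obtain ⟨n, ω, hpre⟩ := h1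
    exact hH Ω Ω' f g h hb hb' (fun k => G k y.1) (fun k => imgN h hb' hfr (G k y.1))
      (fun k => rfl) h3 _ _ h2 (holeLoops_of_pre jord hpre)

end Vale.Agent.P155.CI
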