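import Vale.Agent.P155.CI.Img
import Vale.Agent.P155.T211Q.Same

/-!
# P155, conformal invariance: the image of signed carpets under a conformal isomorphism
-/

open Set Topology Metric Filter MeasureTheory TopologicalSpace

namespace Vale.Agent.P155.CI

open Vale.Agent.P155 Vale.Agent.P155.Q1

variable {Ω Ω' : Set ℂ} {f g : ℂ → ℂ}

/-- the analytic facts on the conformal isomorphism `f : Ω → Ω'` (block CI-A) -/
structure Ana (Ω Ω' : Set ℂ) (f : ℂ → ℂ) : Prop where
  test : ∀ φ, IsTest Ω' φ → IsTest Ω (pullD Ω f φ)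
  cov : ∀ F : ℂ → ℝ, ∫ w in Ω', F w = ∫ z in Ω, F (f z) * ‖deriv f z‖ ^ 2
  null : ∀ N ⊆ Ω, volume N = 0 → volume (f '' N) = 0
  green : ∀ U' ⊆ Ω', IsOpen U' → ∀ φ, IsTest Ω' φ →
    greenEnergy U' φ = greenEnergy {z | z ∈ Ω ∧ f z ∈ U'} (pullD Ω f φ)

theorem pre_diff_img (h : Conf Ω Ω' f g) (K : Set ℂ) :
    {z | z ∈ Ω ∧ f z ∈ Ω' \ img Ω' g K} = Ω \ K := by
  ext z
  constructor
  · rintro ⟨h1, h2⟩
    rw [diff_img h] at h2
    have h3 := h2.2
    rw [h.gf z h1] at h3
    exact h3
  · rintro ⟨h1, h2⟩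
    refine ⟨h1, ?_⟩
    rw [diff_img h]
    refine ⟨h.mf h1, ?_⟩
    rw [h.gf z h1]
    exact ⟨h1, h2⟩

theorem isOpen_diff_img (h : Conf Ω Ω' f g) {K : Set ℂ} (hK : IsClosed K) :
    IsOpen (Ω' \ img Ω' g K) := h.ho'.sdiff (isClosed_img h hK)

theorem test_zero_off' {φ : ℂ → ℝ} (hφ : IsTest Ω' φ) {w : ℂ} (hw : w ∉ Ω') : φ w = 0 :=
  K1.test_zero_off hφ hw

/-- change of variables for a density -/
theorem int_pullD (h : Conf Ω Ω' f g) (ha : Ana Ω Ω' f) {φ : ℂ → ℝ} (hφ : IsTest Ω' φ)
    (u : ℂ → ℝ) : ∫ z, u z * pullD Ω f φ z = ∫ w, (Ω'.indicator (fun w => u (g w)) w) * φ w := by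
  have h1 : ∫ w, (Ω'.indicator (fun w => u (g w)) w) * φ w = ∫ w in Ω', u (g w) * φ w := by
    rw [← integral_indicator h.ho'.measurableSet]
    refine integral_congr_ae (Eventually.of_forall fun w => ?_)
    by_cases hw : w ∈ Ω'
    · simp only [indicator_of_mem hw]
    · simp only [indicator_of_notMem hw, zero_mul]
  have h2 : ∫ z, u z * pullD Ω f φ z = ∫ z in Ω, u z * pullD Ω f φ z := by
    rw [← integral_indicator h.ho.measurableSet]
    refine integral_congr_ae (Eventually.of_forall fun z => ?_)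
    by_cases hz : z ∈ Ω
    · simp only [indicator_of_mem hz]
    · simp only [indicator_of_notMem hz]
      unfold pullD
      rw [if_neg hz, mul_zero]
  rw [h1, h2, ha.cov (fun w => u (g w) * φ w)]
  refine setIntegral_congr_fun h.ho.measurableSet fun z hz => ?_
  unfold pullD
  rw [if_pos hz, h.gf z hz]
  ring

section

variable {Θ : Type} [MeasurableSpace Θ] {P : Measure Θ} {G : ℕ → Θ → NonemptyCompacts ℂ}
  {ξ : ℕ → ℕ → Θ → ℝ}

/-- **The image of signed carpets is a family of signed carpets.** -/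
theorem carp (h : Conf Ω Ω' f g) (ha : Ana Ω Ω' f) (hb : Bornology.IsBounded Ω)
    (hne : Ω.Nonempty) (hb' : Bornology.IsBounded Ω')
    (hfr : (frontier Ω').Nonempty) (hfc : IsConnected (frontier Ω'))
    (hf : T211Q.FairCarpets P Ω G ξ) :
    IsSignedCarpets P Ω' (fun k x => imgN h hb' hfr (G k x))
      (fun k x φ => ∫ z, height Ω (fun j => G j x) (fun j i => ξ j i x) k z * pullD Ω f φ z) where
  zero := by
    filter_upwards [hf.sc.zero] with x hx
    refine ⟨?_, fun φ hφ => hx.2 _ (ha.test φ hφ)⟩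
    rw [coe_imgN, hx.1]
    refine Subset.antisymm ?_ (frontier_sub_img g _)
    rintro w (⟨h1, h2⟩ | h1)
    · have h3 := h.mg h1
      rw [h.ho.frontier_eq] at h2
      exact absurd h3 h2.2
    · exact h1
  rep := by
    refine Eventually.of_forall fun x k => ?_
    refine ⟨Ω'.indicator (fun w => height Ω (fun j => G j x) (fun j i => ξ j i x) k (g w)), ?_,
      fun z => ?_, fun φ hφ => int_pullD h ha hφ _⟩
    · classical
      have h1 : Measurable (Ω'.piecewise g (fun _ => (0 : ℂ))) :=
        ContinuousOn.measurable_piecewise h.cg continuousOn_const h.ho'.measurableSet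
      have h2 : Ω'.indicator (fun w => height Ω (fun j => G j x) (fun j i => ξ j i x) k (g w)) =
          Ω'.indicator (fun w => height Ω (fun j => G j x) (fun j i => ξ j i x) k
            (Ω'.piecewise g (fun _ => (0 : ℂ)) w)) := by
        funext w
        by_cases hw : w ∈ Ω'
        · rw [indicator_of_mem hw, indicator_of_mem hw, piecewise_eq_of_mem _ _ _ hw]
        · rw [indicator_of_notMem hw, indicator_of_notMem hw]
      rw [h2]
      exact ((T211Q.measurable_height h.ho _ _ k).comp h1).indicator h.ho'.measurableSet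
    · by_cases hz : z ∈ Ω'
      · rw [indicator_of_mem hz]
        exact T211Q.abs_height_le _ (fun j i => hf.pm j i x) k _
      · rw [indicator_of_notMem hz, abs_zero]
        exact Nat.cast_nonneg k
  mono := by
    filter_upwards [hf.sc.mono] with x hx k
    exact ⟨img_mono (hx k).1, img_sub_closure g _⟩
  conn := by
    filter_upwards [hf.sc.conn, hf.frontier_sub] with x h1 h2 k
    have hfΩ : (frontier Ω).Nonempty := by
      rw [nonempty_frontier_iff]
      refine ⟨hne, fun hu => ?_⟩
      rw [hu] at hb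
      exact NormedSpace.unbounded_univ ℂ ℂ hb
    exact isConnected_img h hb' hfc (h1 k) (G k x).isCompact.isClosed
      (hfΩ.mono fun z hz => ⟨hz, h2 k hz⟩)
  null := by
    filter_upwards [hf.sc.null] with x hx k
    have h1 := ha.null _ inter_subset_right (hx k)
    refine measure_mono_null ?_ h1
    rintro w ⟨h2 | h2, h3⟩
    · exact ⟨g w, ⟨h2.2, h.mg h3⟩, h.fg w h3⟩
    · rw [h.ho'.frontier_eq] at h2
      exact absurd h3 h2.2
  sign := by
    refine Eventually.of_forall fun x k z r hr hball hdisj => ?_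
    have hV : g '' ball z r ⊆ Ω \ (G (k + 1) x : Set ℂ) := by
      rintro _ ⟨w, hw, rfl⟩
      have hwΩ := hball (ball_subset_closedBall hw)
      refine ⟨h.mg hwΩ, fun hG => ?_⟩
      exact disjoint_left.1 hdisj (ball_subset_closedBall hw) (Or.inl ⟨hwΩ, hG⟩)
    have hpre : IsPreconnected (g '' ball z r) :=
      (convex_ball z r).isPreconnected.image g
        (h.cg.mono (ball_subset_closedBall.trans hball))
    refine ⟨ξ (k + 1) (idx (connectedComponentIn (Ω \ G (k + 1) x) (g z))) x,
      hf.pm _ _ x, fun φ hφ => ?_⟩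
    have hφ' : IsTest Ω' φ := K1.IsTest_mono (ball_subset_closedBall.trans hball) hφ
    have ht := ha.test φ hφ'
    have hi : ∀ l, Integrable (fun w => height Ω (fun j => G j x) (fun j i => ξ j i x) l w *
        pullD Ω f φ w) := fun l =>
      (K1.test_integrable ht).bdd_mul
        (T211Q.measurable_height h.ho (fun j => G j x) (fun j i => ξ j i x) l).aestronglyMeasurable
        (Eventually.of_forall fun w => by
          rw [Real.norm_eq_abs]
          exact T211Q.abs_height_le _ (fun j i => hf.pm j i x) l w)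
    have e1 : ∫ w, φ w = ∫ z, (1 : ℝ) * pullD Ω f φ z := by
      rw [int_pullD h ha hφ' (fun _ => 1)]
      refine integral_congr_ae (Eventually.of_forall fun w => ?_)
      by_cases hw : w ∈ Ω'
      · simp only [indicator_of_mem hw, one_mul]
      · simp only [indicator_of_notMem hw, zero_mul]
        exact K1.test_zero_off hφ' hw
    rw [← integral_sub (hi _) (hi _), e1, ← integral_const_mul]
    refine integral_congr_ae (Eventually.of_forall fun w => ?_)
    simp only
    by_cases hw : w ∈ Ω ∧ f w ∈ ball z r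
    · have hwV : w ∈ g '' ball z r := ⟨f w, hw.2, h.gf w hw.1⟩
      rw [T211Q.height_succ, if_pos (hV hwV)]
      have hc : w ∈ connectedComponentIn (Ω \ (G (k + 1) x : Set ℂ)) (g z) :=
        hpre.subset_connectedComponentIn ⟨z, mem_ball_self hr, rfl⟩ hV hwV
      rw [← connectedComponentIn_eq hc]
      ring
    · have h0 : pullD Ω f φ w = 0 := by
        unfold pullD
        split_ifs with hwΩ
        · rw [K1.test_zero_off hφ (fun hb => hw ⟨hwΩ, hb⟩), zero_mul]
        · rfl
      rw [h0]
      ring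
  meas := by
    intro k
    refine ⟨?_, fun φ hφ => ⟨((hf.sc.meas k).2 _ (ha.test φ hφ)).1, ?_⟩⟩
    · let _ : MeasurableSpace (NonemptyCompacts ℂ) := borel _
      have : BorelSpace (NonemptyCompacts ℂ) := ⟨rfl⟩
      exact (continuous_imgN h hb' hfr).measurable.comp (hf.mG k)
    · have e : (fun x => greenEnergy (Ω' \ (imgN h hb' hfr (G k x) : Set ℂ)) φ) =
          fun x => greenEnergy (Ω \ (G k x : Set ℂ)) (pullD Ω f φ) := by
        funext x
        rw [coe_imgN, ha.green _ sdiff_subset (isOpen_diff_img h (G k x).isCompact.isClosed) φ hφ,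
          pre_diff_img h]
      rw [e]
      exact ((hf.sc.meas k).2 _ (ha.test φ hφ)).2
  gff := by
    intro k m χ φ hχ hφ F hF hC
    obtain ⟨C, hC⟩ := hC
    have hcont : Continuous fun y : (Fin (k + 1) → NonemptyCompacts ℂ) ×
        (Fin (k + 1) → Fin m → ℝ) => ((fun j => imgN h hb' hfr (y.1 j), y.2) :
          (Fin (k + 1) → NonemptyCompacts ℂ) × (Fin (k + 1) → Fin m → ℝ)) := by
      refine Continuous.prodMk ?_ continuous_snd
      exact continuous_pi fun j => (continuous_imgN h hb' hfr).comp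
        ((continuous_apply j).comp continuous_fst)
    have key := hf.sc.gff k m (fun i => pullD Ω f (χ i)) (pullD Ω f φ)
      (fun i => ha.test _ (hχ i)) (ha.test φ hφ)
      (fun y => F (fun j => imgN h hb' hfr (y.1 j), y.2)) (hF.comp hcont) ⟨C, fun y => hC _⟩
    have e : ∀ l x, greenEnergy (Ω' \ (imgN h hb' hfr (G l x) : Set ℂ)) φ =
        greenEnergy (Ω \ (G l x : Set ℂ)) (pullD Ω f φ) := by
      intro l x
      rw [coe_imgN, ha.green _ sdiff_subset (isOpen_diff_img h (G l x).isCompact.isClosed) φ hφ,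
        pre_diff_img h]
    simp only [e]
    exact key

end

end Vale.Agent.P155.CI
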