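import Vale.Agent.P155.H878.Q1Stmt

/-!
# P155: conformal invariance of the nested CLE₄ law, definitions
-/

open Set Topology Metric Filter MeasureTheory TopologicalSpace

namespace Vale.Agent.P155.CI

open Vale.Agent.P155 Vale.Agent.P155.Q1

/-- `f : Ω → Ω'` is a conformal isomorphism with inverse `g`. -/
structure Conf (Ω Ω' : Set ℂ) (f g : ℂ → ℂ) : Prop where
  ho : IsOpen Ω
  ho' : IsOpen Ω'
  df : DifferentiableOn ℂ f Ω
  dg : DifferentiableOn ℂ g Ω'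
  mf : MapsTo f Ω Ω'
  mg : MapsTo g Ω' Ω
  gf : ∀ z ∈ Ω, g (f z) = z
  fg : ∀ w ∈ Ω', f (g w) = w

theorem Conf.symm {Ω Ω' : Set ℂ} {f g : ℂ → ℂ} (h : Conf Ω Ω' f g) : Conf Ω' Ω g f :=
  ⟨h.ho', h.ho, h.dg, h.df, h.mg, h.mf, h.fg, h.gf⟩

open Classical in
/-- the function `v ∘ f` (extended by `0` outside `Ω`) -/
noncomputable def pull (Ω : Set ℂ) (f : ℂ → ℂ) (v : ℂ → ℝ) (z : ℂ) : ℝ :=
  if z ∈ Ω then v (f z) else 0

open Classical in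
/-- the density `φ ∘ f · |f'|²` (extended by `0` outside `Ω`) -/
noncomputable def pullD (Ω : Set ℂ) (f : ℂ → ℂ) (φ : ℂ → ℝ) (z : ℂ) : ℝ :=
  if z ∈ Ω then φ (f z) * ‖deriv f z‖ ^ 2 else 0

/-- the image of the carpet `K` -/
def img (Ω' : Set ℂ) (g : ℂ → ℂ) (K : Set ℂ) : Set ℂ := {w | w ∈ Ω' ∧ g w ∈ K} ∪ frontier Ω'

/-- `Γ'` is the image of the loop collection `Γ` under `f` -/
structure MapsColl (Ω Ω' : Set ℂ) (f : ℂ → ℂ) (Γ Γ' : LoopColl) : Prop where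
  left : ∀ γ : PL, Γ.mult (SeparationQuotient.mk γ) ≠ 0 → Set.range γ.c ⊆ Ω
  right : ∀ γ' : PL, Γ'.mult (SeparationQuotient.mk γ') ≠ 0 → Set.range γ'.c ⊆ Ω'
  mult : ∀ γ γ' : PL, Set.range γ.c ⊆ Ω → (∀ t, γ'.c t = f (γ.c t)) →
    Γ'.mult (SeparationQuotient.mk γ') = Γ.mult (SeparationQuotient.mk γ)

end Vale.Agent.P155.CI
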