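import Vale.Agent.P155.CI.Defs

/-!
# P155, conformal invariance: holes and their boundary loops
-/

open Set Topology Metric Filter MeasureTheory TopologicalSpace

namespace Vale.Agent.P155.CI

open Vale.Agent.P155 Vale.Agent.P155.Q1

variable {Ω Ω' : Set ℂ} {f g : ℂ → ℂ}

namespace Holes

/-- `K'` is the image of `K` inside the domain -/
def Rel (Ω : Set ℂ) (f : ℂ → ℂ) (K K' : Set ℂ) : Prop := ∀ z ∈ Ω, z ∈ K ↔ f z ∈ K'

theorem Rel.symm (h : Conf Ω Ω' f g) {K K' : Set ℂ} (hr : Rel Ω f K K') : Rel Ω' g K' K := by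
  intro w hw
  have := hr (g w) (h.mg hw)
  rw [h.fg w hw] at this
  exact this.symm

theorem rel_img (h : Conf Ω Ω' f g) (K : Set ℂ) : Rel Ω f K (img Ω' g K) := by
  intro z hz
  constructor
  · intro hzK
    refine Or.inl ⟨h.mf hz, ?_⟩
    rw [h.gf z hz]
    exact hzK
  · rintro (hw | hw)
    · have := hw.2
      rwa [h.gf z hz] at this
    · rw [h.ho'.frontier_eq] at hw
      exact absurd (h.mf hz) hw.2

theorem image_image (h : Conf Ω Ω' f g) {U : Set ℂ} (hU : U ⊆ Ω) : g '' (f '' U) = U := by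
  rw [Set.image_image]
  have : ∀ z ∈ U, g (f z) = z := fun z hz => h.gf z (hU hz)
  rw [image_congr this, image_id']

theorem image_cc_sub (h : Conf Ω Ω' f g) {K K' : Set ℂ} (hr : Rel Ω f K K') {z : ℂ}
    (hz : z ∈ Ω \ K) :
    f '' connectedComponentIn (Ω \ K) z ⊆ connectedComponentIn (Ω' \ K') (f z) := by
  have hsub : connectedComponentIn (Ω \ K) z ⊆ Ω \ K := connectedComponentIn_subset _ _
  refine IsPreconnected.subset_connectedComponentIn ?_ ?_ ?_
  · exact isPreconnected_connectedComponentIn.image f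
      (h.df.continuousOn.mono (hsub.trans sdiff_subset))
  · exact ⟨z, mem_connectedComponentIn hz, rfl⟩
  · rintro _ ⟨w, hw, rfl⟩
    have hw' := hsub hw
    exact ⟨h.mf hw'.1, fun h' => hw'.2 ((hr w hw'.1).2 h')⟩

theorem image_cc (h : Conf Ω Ω' f g) {K K' : Set ℂ} (hr : Rel Ω f K K') {z : ℂ}
    (hz : z ∈ Ω \ K) :
    f '' connectedComponentIn (Ω \ K) z = connectedComponentIn (Ω' \ K') (f z) := by
  refine (image_cc_sub h hr hz).antisymm ?_
  have hz' : f z ∈ Ω' \ K' := ⟨h.mf hz.1, fun h' => hz.2 ((hr z hz.1).2 h')⟩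
  have h1 := image_cc_sub h.symm (hr.symm h) hz'
  rw [h.gf z hz.1] at h1
  have h2 := image_mono (f := f) h1
  rwa [image_image h.symm ((connectedComponentIn_subset _ _).trans sdiff_subset)] at h2

theorem isHole_image (h : Conf Ω Ω' f g) {K K' : Set ℂ} (hr : Rel Ω f K K') {U : Set ℂ}
    (hU : IsHole Ω K U) : IsHole Ω' K' (f '' U) := by
  obtain ⟨z, hz, rfl⟩ := hU
  exact ⟨f z, ⟨h.mf hz.1, fun h' => hz.2 ((hr z hz.1).2 h')⟩, image_cc h hr hz⟩

theorem hole_sub {K U : Set ℂ} (hU : IsHole Ω K U) : U ⊆ Ω := by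
  obtain ⟨z, -, rfl⟩ := hU
  exact (connectedComponentIn_subset _ _).trans sdiff_subset

theorem hole_open (ho : IsOpen Ω) {K U : Set ℂ} (hK : IsClosed K) (hU : IsHole Ω K U) :
    IsOpen U := by
  obtain ⟨z, -, rfl⟩ := hU
  exact (ho.sdiff hK).connectedComponentIn

theorem image_eq (h : Conf Ω Ω' f g) {U : Set ℂ} (hU : U ⊆ Ω) : f '' U = Ω' ∩ g ⁻¹' U := by
  ext w
  constructor
  · rintro ⟨z, hz, rfl⟩
    refine ⟨h.mf (hU hz), ?_⟩
    rw [mem_preimage, h.gf z (hU hz)]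
    exact hz
  · rintro ⟨h1, h2⟩
    exact ⟨g w, h2, h.fg w h1⟩

theorem isOpen_image (h : Conf Ω Ω' f g) {U : Set ℂ} (hU : U ⊆ Ω) (hUo : IsOpen U) :
    IsOpen (f '' U) := by
  rw [image_eq h hU]
  exact h.dg.continuousOn.isOpen_inter_preimage h.ho' hUo

theorem frontier_image (h : Conf Ω Ω' f g) (hb : Bornology.IsBounded Ω) {U : Set ℂ} (hU : U ⊆ Ω)
    (hUo : IsOpen U) (hfr : frontier U ⊆ Ω) : frontier (f '' U) = f '' frontier U := by
  have hcl : closure U ⊆ Ω := by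
    rw [closure_eq_self_union_frontier]
    exact union_subset hU hfr
  have hcc : IsCompact (closure U) := (hb.subset hU).isCompact_closure
  have hfc : IsCompact (f '' closure U) := hcc.image_of_continuousOn (h.df.continuousOn.mono hcl)
  have h1 : closure (f '' U) = f '' closure U := by
    refine Subset.antisymm (closure_minimal (image_mono subset_closure) hfc.isClosed) ?_
    exact ContinuousOn.image_closure (h.df.continuousOn.mono hcl)
  rw [(isOpen_image h hU hUo).frontier_eq, h1, hUo.frontier_eq]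
  have hinj : InjOn f (closure U) := fun z hz w hw e => by
    rw [← h.gf z (hcl hz), ← h.gf w (hcl hw), e]
  exact (hinj.image_sdiff_subset subset_closure).symm

/-- the image of a loop in `Ω` -/
noncomputable def imgL (h : Conf Ω Ω' f g) (γ : PL) (hγ : range γ.c ⊆ Ω) : PL where
  c := ⟨fun t => f (γ.c t), by
    have h1 : ContinuousOn (fun t => f (γ.c t)) univ :=
      h.df.continuousOn.comp γ.c.continuous.continuousOn fun t _ => hγ ⟨t, rfl⟩
    exact continuousOn_univ.1 h1⟩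

theorem imgL_c (h : Conf Ω Ω' f g) (γ : PL) (hγ : range γ.c ⊆ Ω) (t : S1) :
    (imgL h γ hγ).c t = f (γ.c t) := rfl

theorem isJordan_imgL (h : Conf Ω Ω' f g) {γ : PL} (hγ : range γ.c ⊆ Ω) {A : Set ℂ}
    (hJ : IsJordan γ A) : IsJordan (imgL h γ hγ) (f '' A) := by
  constructor
  · intro s t hst
    rw [imgL_c, imgL_c] at hst
    refine hJ.1 ?_
    rw [← h.gf _ (hγ ⟨s, rfl⟩), ← h.gf _ (hγ ⟨t, rfl⟩), hst]
  · rw [← hJ.2, ← range_comp]
    rfl

/-- loops at distance `0` have the same trace -/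
theorem range_of_mk_eq {γ γ' : PL}
    (h : (SeparationQuotient.mk γ : Loop) = SeparationQuotient.mk γ') :
    range γ.c ⊆ range γ'.c := by
  have h0 : dist γ γ' = 0 := Metric.inseparable_iff.1 (SeparationQuotient.mk_eq_mk.1 h)
  rintro _ ⟨t, rfl⟩
  have hcl : IsClosed (range γ'.c) := (isCompact_rng γ').isClosed
  rw [← hcl.closure_eq, Metric.mem_closure_iff]
  intro ε hε
  obtain ⟨φ, hφ⟩ := exists_lt (γ := γ) (γ' := γ') (ε := ε) (by rw [← dist_def, h0]; exact hε)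
  exact ⟨γ'.c (φ t), ⟨φ t, rfl⟩, (ContinuousMap.dist_apply_le_dist (f := γ.c)
    (g := γ'.c.comp (φ : C(S1, S1))) t).trans_lt hφ⟩

theorem mk_imgL (h : Conf Ω Ω' f g) {γ γ' : PL} (hγ : range γ.c ⊆ Ω) (hγ' : range γ'.c ⊆ Ω)
    (he : (SeparationQuotient.mk γ : Loop) = SeparationQuotient.mk γ') :
    (SeparationQuotient.mk (imgL h γ hγ) : Loop) = SeparationQuotient.mk (imgL h γ' hγ') := by
  have h0 : dist γ γ' = 0 := Metric.inseparable_iff.1 (SeparationQuotient.mk_eq_mk.1 he)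
  refine SeparationQuotient.mk_eq_mk.2 (Metric.inseparable_iff.2 ?_)
  refine le_antisymm (le_of_forall_pos_le_add fun ε hε => ?_) dist_nonneg
  rw [zero_add]
  have hK : IsCompact (range γ.c ∪ range γ'.c) := (isCompact_rng γ).union (isCompact_rng γ')
  have huc := hK.uniformContinuousOn_of_continuous
    (h.df.continuousOn.mono (union_subset hγ hγ'))
  obtain ⟨η, hη, hu⟩ := Metric.uniformContinuousOn_iff.1 huc ε hε
  obtain ⟨φ, hφ⟩ := exists_lt (γ := γ) (γ' := γ') (ε := η) (by rw [← dist_def, h0]; exact hη)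
  refine (ldist_le _ _ φ).trans ?_
  rw [ContinuousMap.dist_le hε.le]
  intro t
  exact (hu (γ.c t) (Or.inl ⟨t, rfl⟩) (γ'.c (φ t)) (Or.inr ⟨φ t, rfl⟩)
    ((ContinuousMap.dist_apply_le_dist (f := γ.c)
    (g := γ'.c.comp (φ : C(S1, S1))) t).trans_lt hφ)).le

/-- the pairs (level, hole) whose boundary loop is `γ` -/
def S (Ω : Set ℂ) (G : ℕ → Set ℂ) (γ : Loop) : Set (ℕ × Set ℂ) :=
  {p | 1 ≤ p.1 ∧ IsHole Ω (G p.1) p.2 ∧
    ∃ c : PL, IsJordan c (frontier p.2) ∧ SeparationQuotient.mk c = γ}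

theorem maps_S (h : Conf Ω Ω' f g) (hb : Bornology.IsBounded Ω) {G G' : ℕ → Set ℂ}
    (hcl : ∀ k, IsClosed (G k)) (hr : ∀ k, Rel Ω f (G k) (G' k))
    (hin : ∀ k U, 1 ≤ k → IsHole Ω (G k) U → frontier U ⊆ Ω) {γ γ' : PL}
    (hγ : range γ.c ⊆ Ω) (hγ' : ∀ t, γ'.c t = f (γ.c t)) {p : ℕ × Set ℂ}
    (hp : p ∈ S Ω G (SeparationQuotient.mk γ)) :
    (p.1, f '' p.2) ∈ S Ω' G' (SeparationQuotient.mk γ') := by
  obtain ⟨h1, h2, c, hc, he⟩ := hp
  have hfr := hin _ _ h1 h2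
  have hcr : range c.c ⊆ Ω := by
    rw [hc.2]
    exact hfr
  refine ⟨h1, isHole_image h (hr _) h2, imgL h c hcr, ?_, ?_⟩
  · show IsJordan _ (frontier (f '' p.2))
    rw [frontier_image h hb (hole_sub h2) (hole_open h.ho (hcl _) h2) hfr]
    exact isJordan_imgL h hcr hc
  · rw [mk_imgL h hcr hγ he]
    have e : imgL h γ hγ = γ' := by
      refine PL.ext (ContinuousMap.ext fun t => ?_)
      rw [imgL_c, hγ']
    rw [e]

end Holes

open Holes

theorem range_sub_of_mult {G : ℕ → NonemptyCompacts ℂ} {Γ : LoopColl} (hH : HoleLoops Ω G Γ)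
    {γ : PL} (hγ : Γ.mult (SeparationQuotient.mk γ) ≠ 0) : range γ.c ⊆ Ω := by
  rw [hH.mult] at hγ
  obtain ⟨p, h1, h2, c, hc, he⟩ := nonempty_of_ncard_ne_zero hγ
  refine (range_of_mk_eq he.symm).trans ?_
  rw [hc.2]
  exact hH.inside _ _ h1 h2

/-- **the loops of the image carpets are the images of the loops** -/
theorem mapsColl_of_holeLoops (h : Conf Ω Ω' f g) (hb : Bornology.IsBounded Ω)
    (hb' : Bornology.IsBounded Ω') {G G' : ℕ → NonemptyCompacts ℂ}
    (hG : ∀ k, (G' k : Set ℂ) = img Ω' g (G k)) {Γ Γ' : LoopColl} (hH : HoleLoops Ω G Γ)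
    (hH' : HoleLoops Ω' G' Γ') : MapsColl Ω Ω' f Γ Γ' := by
  have hr : ∀ k, Rel Ω f (G k : Set ℂ) (G' k : Set ℂ) := fun k => by
    rw [hG k]
    exact rel_img h _
  refine ⟨fun γ hγ => range_sub_of_mult hH hγ, fun γ' hγ' => range_sub_of_mult hH' hγ', ?_⟩
  intro γ γ' hγ hγ'
  have hγr : range γ'.c ⊆ Ω' := by
    rintro _ ⟨t, rfl⟩
    rw [hγ' t]
    exact h.mf (hγ ⟨t, rfl⟩)
  have hγg : ∀ t, γ.c t = g (γ'.c t) := fun t => by rw [hγ' t, h.gf _ (hγ ⟨t, rfl⟩)]
  rw [hH.mult, hH'.mult]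
  have hm := fun p (hp : p ∈ S Ω (fun k => (G k : Set ℂ)) (SeparationQuotient.mk γ)) =>
    maps_S h hb (G' := fun k => (G' k : Set ℂ)) (fun k => (G k).isCompact.isClosed) hr
      hH.inside hγ hγ' hp
  have hm' := fun p (hp : p ∈ S Ω' (fun k => (G' k : Set ℂ)) (SeparationQuotient.mk γ')) =>
    maps_S h.symm hb' (G' := fun k => (G k : Set ℂ)) (fun k => (G' k).isCompact.isClosed)
      (fun k => (hr k).symm h) hH'.inside hγr hγg hp
  refine (ncard_congr (s := S Ω (fun k => (G k : Set ℂ)) (SeparationQuotient.mk γ))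
    (t := S Ω' (fun k => (G' k : Set ℂ)) (SeparationQuotient.mk γ'))
    (fun p _ => (p.1, f '' p.2)) hm ?_ ?_).symm
  · rintro ⟨k, U⟩ ⟨l, V⟩ h1 h2 he
    obtain ⟨e1, e2⟩ := Prod.mk.inj he
    simp only at e1 e2
    have e3 := congrArg (fun A => g '' A) e2
    simp only [image_image h (hole_sub h1.2.1), image_image h (hole_sub h2.2.1)] at e3
    rw [e1, e3]
  · rintro ⟨k, U⟩ h1
    refine ⟨(k, g '' U), hm' _ h1, ?_⟩
    simp only [image_image h.symm (hole_sub h1.2.1)]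

end Vale.Agent.P155.CI
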