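import Vale.Agent.P155.CI.Defs

/-!
# P155, conformal invariance: images of compact sets
-/

open Set Topology Metric Filter MeasureTheory TopologicalSpace

namespace Vale.Agent.P155.CI

open Vale.Agent.P155 Vale.Agent.P155.Q1

variable {Ω Ω' : Set ℂ} {f g : ℂ → ℂ}

theorem Conf.cf (h : Conf Ω Ω' f g) : ContinuousOn f Ω := h.df.continuousOn

theorem Conf.cg (h : Conf Ω Ω' f g) : ContinuousOn g Ω' := h.dg.continuousOn

theorem img_sub_closure (g : ℂ → ℂ) (K : Set ℂ) : img Ω' g K ⊆ closure Ω' := by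
  rintro w (hw | hw)
  · exact subset_closure hw.1
  · exact frontier_subset_closure hw

theorem frontier_sub_img (g : ℂ → ℂ) (K : Set ℂ) : frontier Ω' ⊆ img Ω' g K := subset_union_right

theorem img_mono {K K' : Set ℂ} (h : K ⊆ K') : img Ω' g K ⊆ img Ω' g K' := by
  rintro w (hw | hw)
  · exact Or.inl ⟨hw.1, h hw.2⟩
  · exact Or.inr hw

theorem diff_img (h : Conf Ω Ω' f g) (K : Set ℂ) :
    Ω' \ img Ω' g K = {w | w ∈ Ω' ∧ g w ∈ Ω \ K} := by
  ext w
  constructor
  · rintro ⟨h1, h2⟩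
    exact ⟨h1, h.mg h1, fun h3 => h2 (Or.inl ⟨h1, h3⟩)⟩
  · rintro ⟨h1, h2⟩
    refine ⟨h1, ?_⟩
    rintro (h3 | h3)
    · exact h2.2 h3.2
    · rw [h.ho'.frontier_eq] at h3
      exact h3.2 h1

theorem isClosed_img (h : Conf Ω Ω' f g) {K : Set ℂ} (hK : IsClosed K) :
    IsClosed (img Ω' g K) := by
  rw [← closure_subset_iff_isClosed]
  intro w hw
  have hwc : w ∈ closure Ω' := closure_minimal (img_sub_closure g K) isClosed_closure hw
  by_cases hfr : w ∈ frontier Ω'
  · exact Or.inr hfr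
  have hwΩ : w ∈ Ω' := by
    by_contra hn
    rw [h.ho'.frontier_eq] at hfr
    exact hfr ⟨hwc, hn⟩
  by_cases hg : g w ∈ K
  · exact Or.inl ⟨hwΩ, hg⟩
  exfalso
  have hO : IsOpen (Ω' ∩ g ⁻¹' Kᶜ) := h.cg.isOpen_inter_preimage h.ho' hK.isOpen_compl
  obtain ⟨u, ⟨hu1, hu2⟩, hu3⟩ := mem_closure_iff.1 hw _ hO ⟨hwΩ, hg⟩
  rcases hu3 with hu3 | hu3
  · exact hu2 hu3.2
  · rw [h.ho'.frontier_eq] at hu3
    exact hu3.2 hu1

theorem isCompact_img (h : Conf Ω Ω' f g) (hb' : Bornology.IsBounded Ω') {K : Set ℂ}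
    (hK : IsClosed K) : IsCompact (img Ω' g K) :=
  isCompact_of_isClosed_isBounded (isClosed_img h hK)
    (hb'.closure.subset (img_sub_closure g K))

/-- the image of a compact set as a nonempty compact set -/
def imgN (h : Conf Ω Ω' f g) (hb' : Bornology.IsBounded Ω') (hfr : (frontier Ω').Nonempty)
    (K : NonemptyCompacts ℂ) : NonemptyCompacts ℂ :=
  ⟨⟨img Ω' g K, isCompact_img h hb' K.isCompact.isClosed⟩, hfr.mono (frontier_sub_img g _)⟩

theorem coe_imgN (h : Conf Ω Ω' f g) (hb' : Bornology.IsBounded Ω')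
    (hfr : (frontier Ω').Nonempty) (K : NonemptyCompacts ℂ) :
    (imgN h hb' hfr K : Set ℂ) = img Ω' g K := rfl

theorem img_unif (h : Conf Ω Ω' f g) (hb' : Bornology.IsBounded Ω') {ε : ℝ} (hε : 0 < ε) :
    ∃ η > 0, ∀ K K' : NonemptyCompacts ℂ, dist K K' < η → ∀ w ∈ img Ω' g K,
      ∃ w' ∈ img Ω' g K', dist w w' ≤ ε := by
  set C' : Set ℂ := closure Ω' ∩ {w | ε ≤ infDist w (frontier Ω')} with hC'
  have hC'c : IsCompact C' := by
    refine hb'.isCompact_closure.inter_right ?_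
    exact isClosed_le continuous_const (continuous_infDist_pt _)
  have hC'Ω : C' ⊆ Ω' := by
    rintro w ⟨h1, h2⟩
    by_contra hn
    have hfr : w ∈ frontier Ω' := by
      rw [h.ho'.frontier_eq]
      exact ⟨h1, hn⟩
    have h3 : ε ≤ infDist w (frontier Ω') := h2
    rw [infDist_zero_of_mem hfr] at h3
    linarith
  have hCc : IsCompact (g '' C') := hC'c.image_of_continuousOn (h.cg.mono hC'Ω)
  have hCΩ : g '' C' ⊆ Ω := by
    rintro _ ⟨w, hw, rfl⟩
    exact h.mg (hC'Ω hw)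
  obtain ⟨r, hr, hsub⟩ := hCc.exists_cthickening_subset_open h.ho hCΩ
  have hct : IsCompact (cthickening r (g '' C')) := hCc.cthickening
  have huc := hct.uniformContinuousOn_of_continuous (h.cf.mono hsub)
  obtain ⟨η0, hη0, hη⟩ := Metric.uniformContinuousOn_iff.1 huc ε hε
  refine ⟨min η0 r, lt_min hη0 hr, fun K K' hd w hw => ?_⟩
  rcases hw with ⟨hw1, hw2⟩ | hw
  · by_cases hlt : infDist w (frontier Ω') < ε
    · have hne : (frontier Ω').Nonempty := by
        rw [nonempty_frontier_iff]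
        refine ⟨⟨w, hw1⟩, fun hu => ?_⟩
        rw [hu] at hb'
        exact NormedSpace.unbounded_univ ℂ ℂ hb'
      obtain ⟨p, hp, hpd⟩ := (infDist_lt_iff hne).1 hlt
      exact ⟨p, Or.inr hp, hpd.le⟩
    · have hwC : w ∈ C' := ⟨subset_closure hw1, not_lt.1 hlt⟩
      rw [NonemptyCompacts.dist_eq] at hd
      obtain ⟨y, hy, hyd⟩ := exists_dist_lt_of_hausdorffDist_lt hw2 hd
        (hausdorffEDist_ne_top_of_nonempty_of_bounded K.nonempty K'.nonempty
          K.isCompact.isBounded K'.isCompact.isBounded)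
      have hz : g w ∈ g '' C' := ⟨w, hwC, rfl⟩
      have hyc : y ∈ cthickening r (g '' C') := by
        refine mem_cthickening_of_dist_le y (g w) r _ hz ?_
        rw [dist_comm]
        exact (hyd.le.trans (min_le_right _ _))
      have hyΩ := hsub hyc
      refine ⟨f y, Or.inl ⟨h.mf hyΩ, ?_⟩, ?_⟩
      · show g (f y) ∈ (K' : Set ℂ)
        rw [h.gf y hyΩ]
        exact hy
      · have h1 := hη (g w) (self_subset_cthickening _ hz) y hyc (hyd.trans_le (min_le_left _ _))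
        rw [h.fg w hw1] at h1
        exact h1.le
  · exact ⟨w, Or.inr hw, by rw [dist_self]; exact hε.le⟩

theorem continuous_imgN (h : Conf Ω Ω' f g) (hb' : Bornology.IsBounded Ω')
    (hfr : (frontier Ω').Nonempty) : Continuous (imgN h hb' hfr) := by
  refine Metric.continuous_iff.2 fun K ε hε => ?_
  obtain ⟨η, hη, hu⟩ := img_unif h hb' (show 0 < ε / 2 by positivity)
  refine ⟨η, hη, fun K' hd => ?_⟩
  have : dist (imgN h hb' hfr K') (imgN h hb' hfr K) ≤ ε / 2 := by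
    rw [NonemptyCompacts.dist_eq]
    exact hausdorffDist_le_of_mem_dist (by positivity) (hu K' K hd)
      (hu K K' (by rwa [dist_comm]))
  linarith

/-- the image of a connected carpet is connected -/
theorem isConnected_img (h : Conf Ω Ω' f g) (hb' : Bornology.IsBounded Ω')
    (hfc : IsConnected (frontier Ω')) {K : Set ℂ} (hK : IsConnected K) (hKc : IsClosed K)
    (hfr : (frontier Ω ∩ K).Nonempty) : IsConnected (img Ω' g K) := by
  have hAc := isCompact_img h hb' hKc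
  -- one sided statement
  have key : ∀ t t' : Set ℂ, IsClosed t → IsClosed t' → img Ω' g K ⊆ t ∪ t' →
      frontier Ω' ⊆ t → (img Ω' g K ∩ t').Nonempty → (img Ω' g K ∩ (t ∩ t')).Nonempty := by
    intro t t' ht ht' hcov hft hne
    by_contra hcon
    rw [not_nonempty_iff_eq_empty] at hcon
    -- `B = A ∩ t'` is compact and contained in `Ω'`
    have hBsub : ∀ w ∈ img Ω' g K, w ∈ t' → w ∉ t := by
      intro w h1 h2 h3
      have : w ∈ img Ω' g K ∩ (t ∩ t') := ⟨h1, h3, h2⟩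
      rw [hcon] at this
      exact this
    have hBc : IsCompact (img Ω' g K ∩ t') := hAc.inter_right ht'
    have hBΩ : img Ω' g K ∩ t' ⊆ Ω' := by
      rintro w ⟨h1, h2⟩
      rcases h1 with h1 | h1
      · exact h1.1
      · exact absurd (hft h1) (hBsub w (Or.inr h1) h2)
    have hgB : IsCompact (g '' (img Ω' g K ∩ t')) :=
      hBc.image_of_continuousOn (h.cg.mono hBΩ)
    -- the open set
    have hO : IsOpen (Ω ∩ f ⁻¹' tᶜ) := h.cf.isOpen_inter_preimage h.ho ht.isOpen_compl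
    have hKO : K ∩ (Ω ∩ f ⁻¹' tᶜ) ⊆ g '' (img Ω' g K ∩ t') := by
      rintro z ⟨h1, h2, h3⟩
      have h4 : f z ∈ img Ω' g K := Or.inl ⟨h.mf h2, by rw [h.gf z h2]; exact h1⟩
      exact ⟨f z, ⟨h4, (hcov h4).resolve_left h3⟩, h.gf z h2⟩
    have hgBO : g '' (img Ω' g K ∩ t') ⊆ Ω ∩ f ⁻¹' tᶜ := by
      rintro _ ⟨w, hw, rfl⟩
      refine ⟨h.mg (hBΩ hw), ?_⟩
      show f (g w) ∉ t
      rw [h.fg w (hBΩ hw)]
      exact hBsub w hw.1 hw.2
    -- `K` is covered by two disjoint closed sets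
    have hcl : IsClosed (K \ (Ω ∩ f ⁻¹' tᶜ)) := hKc.sdiff hO
    obtain ⟨z, hz1, hz2, hz3⟩ := isPreconnected_closed_iff.1 hK.isPreconnected _ _ hcl hgB.isClosed
      (by
        intro z hz
        by_cases hzO : z ∈ Ω ∩ f ⁻¹' tᶜ
        · exact Or.inr (hKO ⟨hz, hzO⟩)
        · exact Or.inl ⟨hz, hzO⟩)
      (by
        obtain ⟨p, hp1, hp2⟩ := hfr
        refine ⟨p, hp2, hp2, fun hpO => ?_⟩
        rw [h.ho.frontier_eq] at hp1
        exact hp1.2 hpO.1)
      (by
        obtain ⟨w, hw⟩ := hne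
        refine ⟨g w, ?_, ⟨w, hw, rfl⟩⟩
        rcases hw.1 with h1 | h1
        · exact h1.2
        · exact absurd (hft h1) (hBsub w hw.1 hw.2))
    exact hz2.2 (hgBO hz3)
  refine ⟨hfc.nonempty.mono (frontier_sub_img g K), isPreconnected_closed_iff.2 ?_⟩
  intro t t' ht ht' hcov h1 h2
  -- the frontier is in one of the two sets
  by_cases hft : frontier Ω' ⊆ t
  · exact key t t' ht ht' hcov hft h2
  by_cases hft' : frontier Ω' ⊆ t'
  · rw [inter_comm t t']
    exact key t' t ht' ht (by rwa [union_comm]) hft' h1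
  -- both sets meet the frontier
  rw [not_subset] at hft hft'
  obtain ⟨p, hp, hpt⟩ := hft
  obtain ⟨p', hp', hpt'⟩ := hft'
  have hcf : frontier Ω' ⊆ t ∪ t' := (frontier_sub_img g K).trans hcov
  obtain ⟨w, hw, hw'⟩ := isPreconnected_closed_iff.1 hfc.isPreconnected t t' ht ht' hcf
    ⟨p', hp', (hcf hp').resolve_right hpt'⟩ ⟨p, hp, (hcf hp).resolve_left hpt⟩
  exact ⟨w, Or.inr hw, hw'⟩

end Vale.Agent.P155.CI
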