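import Vale.Agent.P155.CI.Ana
import Vale.Agent.P155.CI.Holes

/-!
# P155, conformal invariance of the nested CLE₄ law (modulo PIN, BDT)
-/

open Set Topology Metric Filter MeasureTheory TopologicalSpace

namespace Vale.Agent.P155.CI

open Vale.Agent.P155 Vale.Agent.P155.Q1 Vale.Agent.P155.EX

theorem holes : HOLES := fun _ _ _ _ h hb hb' _ _ hG _ _ _ hH hH' =>
  mapsColl_of_holeLoops h hb hb' hG hH hH'

/-- **Conformal invariance of the nested CLE₄ law** (modulo PIN, BDT) -/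
theorem conf_inv (hPIN : PIN) (hBDT : BDT) {Ω Ω' : Set ℂ}
    (hb : Bornology.IsBounded Ω) (hne : Ω.Nonempty)
    (hb' : Bornology.IsBounded Ω') (hne' : Ω'.Nonempty) (hsc' : SimplyConnectedSpace Ω')
    {f g : ℂ → ℂ} (h : Conf Ω Ω' f g) {μ μ' : Measure LoopColl} (hμ : IsNestedCLE4 Ω μ)
    (hμ' : IsNestedCLE4 Ω' μ') :
    ∃ (Θ : Type) (_ : MeasurableSpace Θ) (P : Measure Θ) (Γ Γ' : Θ → LoopColl),
      IsProbabilityMeasure P ∧ AEMeasurable Γ P ∧ AEMeasurable Γ' P ∧ P.map Γ = μ ∧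
      P.map Γ' = μ' ∧ ∀ᵐ x ∂P, MapsColl Ω Ω' f (Γ x) (Γ' x) :=
  conf_inv_of hPIN hBDT ana holes hb hne hb' hne' hsc' h hμ hμ'

end Vale.Agent.P155.CI
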